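import Vale.Agent.P339.H898.RedDefs
import Vale.Agent.P325.Parse

/-!
# From 2-to-1 games to unique games: the value of the instance
-/

namespace Vale.Agent.P339.H898

open Vale.Agent.P325 Vale.Agent.P325.Alg Vale.Agent.P339.H283

variable {q : ℕ}

/-! ### The permutations -/

theorem sigF_val (π : Fin (2 * q) → Fin q) (b : Bool) (a : Fin (2 * q)) :
    (sigF π b a : ℕ) = if decide (Small π a) = b then (π a : ℕ) else π a + q := by
  unfold sigF
  split_ifs <;> rfl

theorem sigF_inj {π : Fin (2 * q) → Fin q}
    (h : ∀ b : Fin q, (Finset.univ.filter fun a => π a = b).card = 2) (b : Bool) :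
    Function.Injective (sigF π b) := by
  intro x y hxy
  have h1 : (sigF π b x : ℕ) = sigF π b y := by rw [hxy]
  rw [sigF_val, sigF_val] at h1
  have hx := (π x).2
  have hy := (π y).2
  have key : π x = π y ∧ (Small π x ↔ Small π y) := by
    by_cases h2 : decide (Small π x) = b <;> by_cases h3 : decide (Small π y) = b
    · rw [if_pos h2, if_pos h3] at h1
      exact ⟨Fin.ext h1, by simpa using h2.trans h3.symm⟩
    · rw [if_pos h2, if_neg h3] at h1
      omega
    · rw [if_neg h2, if_pos h3] at h1
      omega
    · rw [if_neg h2, if_neg h3] at h1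
      refine ⟨Fin.ext (by omega), ?_⟩
      cases b <;> simp_all
  obtain ⟨h2, h3⟩ := key
  -- no three preimages
  have h4 : ∀ j u v : Fin (2 * q), j < u → u < v → π j = π u → π u = π v → False := by
    intro j u v hju huv e1 e2
    have h5 : ({j, u, v} : Finset (Fin (2 * q))) ⊆ Finset.univ.filter fun a => π a = π u := by
      intro a ha
      simp only [Finset.mem_insert, Finset.mem_singleton] at ha
      rcases ha with rfl | rfl | rfl
      · simp [e1]
      · simp
      · simp [e2]
    have h6 := Finset.card_le_card h5
    rw [h, Finset.card_eq_three.2 ⟨j, u, v, hju.ne, (hju.trans huv).ne, huv.ne, rfl⟩] at h6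
    omega
  by_contra hne
  rcases lt_or_gt_of_ne hne with hlt | hlt
  · by_cases hs : Small π y
    · exact hs x hlt h2
    · have hs' : ¬ Small π x := fun h5 => hs (h3.1 h5)
      unfold Small at hs'
      push Not at hs'
      obtain ⟨j, hj, hj'⟩ := hs'
      exact h4 j x y hj hlt hj' h2
  · by_cases hs : Small π x
    · exact hs y hlt h2.symm
    · have hs' : ¬ Small π y := fun h5 => hs (h3.2 h5)
      unfold Small at hs'
      push Not at hs'
      obtain ⟨j, hj, hj'⟩ := hs'
      exact h4 j y x hj hlt hj' h2.symm

theorem sig_apply {π : Fin (2 * q) → Fin q}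
    (h : ∀ b : Fin q, (Finset.univ.filter fun a => π a = b).card = 2) (b : Bool)
    (a : Fin (2 * q)) : sig π b a = sigF π b a := by
  unfold sig
  rw [dif_pos (Finite.injective_iff_bijective.1 (sigF_inj h b))]
  rfl

/-- exactly one of the two permutations is satisfied if the projection is -/
theorem two_sat {π : Fin (2 * q) → Fin q}
    (h : ∀ b : Fin q, (Finset.univ.filter fun a => π a = b).card = 2) (x y : Fin (2 * q)) :
    (if y = sig π true x then 1 else 0) + (if y = sig π false x then 1 else 0) =
      if (y : ℕ) % q = π x then 1 else 0 := by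
  have hπ := (π x).2
  have hy := y.2
  have hmod : (y : ℕ) % q = π x ↔ (y : ℕ) = π x ∨ (y : ℕ) = π x + q := by
    constructor
    · intro h1
      by_cases h2 : (y : ℕ) < q
      · rw [Nat.mod_eq_of_lt h2] at h1
        exact Or.inl h1
      · have h3 : (y : ℕ) = (y : ℕ) - q + q := by omega
        rw [h3, Nat.add_mod_right, Nat.mod_eq_of_lt (by omega)] at h1
        omega
    · rintro (h1 | h1)
      · rw [h1, Nat.mod_eq_of_lt hπ]
      · rw [h1, Nat.add_mod_right, Nat.mod_eq_of_lt hπ]
  simp only [Fin.ext_iff, sig_apply h, sigF_val, hmod]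
  by_cases hs : Small π x
  · simp only [hs, decide_true, if_true]
    simp only [Bool.true_eq_false, if_false]
    split_ifs <;> omega
  · simp only [hs, decide_false, if_true]
    simp only [Bool.false_eq_true, if_false]
    split_ifs <;> omega

/-! ### The code of the instance -/

theorem gt_ofFn (π : Fin (2 * q) → Fin q) (a : Fin (2 * q)) :
    gt (List.ofFn fun a => (π a : ℕ)) a = π a := by
  unfold gt
  rw [List.getD_eq_getElem _ _ (by simp)]
  simp

theorem isFst_ofFn (π : Fin (2 * q) → Fin q) (a : Fin (2 * q)) :
    isFst (List.ofFn fun a => (π a : ℕ)) a = decide (Small π a) := by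
  rw [Bool.eq_iff_iff]
  unfold isFst
  simp only [List.all_eq_true, List.mem_range, Bool.not_eq_true', decide_eq_false_iff_not,
    decide_eq_true_eq]
  rw [gt_ofFn]
  constructor
  · intro h j hj h1
    refine h j hj ?_
    rw [gt_ofFn, h1]
  · intro h j hj h1
    have hj2 : j < 2 * q := hj.trans a.2
    refine h ⟨j, hj2⟩ hj (Fin.ext ?_)
    rw [← h1]
    exact (gt_ofFn π ⟨j, hj2⟩).symm

theorem sigN_ofFn {π : Fin (2 * q) → Fin q}
    (h : ∀ b : Fin q, (Finset.univ.filter fun a => π a = b).card = 2) (b : Bool)
    (a : Fin (2 * q)) : sigN q b (List.ofFn fun a => (π a : ℕ)) a = sig π b a := by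
  rw [sig_apply h, sigF_val]
  unfold sigN
  rw [isFst_ofFn, gt_ofFn]

theorem sigL_ofFn {π : Fin (2 * q) → Fin q}
    (h : ∀ b : Fin q, (Finset.univ.filter fun a => π a = b).card = 2) (b : Bool) :
    sigL q b (List.ofFn fun a => (π a : ℕ)) = List.ofFn fun a => (sig π b a : ℕ) := by
  unfold sigL tab
  refine List.ext_getElem (by simp) fun i h1 h2 => ?_
  have hi : i < 2 * q := by simpa using h1
  rw [List.getElem_map, List.getElem_range, List.getElem_ofFn]
  exact sigN_ofFn h b ⟨i, hi⟩

theorem blockL_eq (G : Game q) {e : Constraint q} (he : e ∈ G.cons) (b : Bool) :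
    blockL q (listG G) (tabG e) b = ((conG G e b).1 : ℕ) :: ((conG G e b).2.1 : ℕ) ::
      List.ofFn fun i => ((conG G e b).2.2 i : ℕ) := by
  unfold blockL conG leftV rightV listG tabG
  simp only [List.map_map]
  rw [sigL_ofFn (G.two_to_one e he)]
  rfl

theorem codeL_consG (G : Game q) : codeL (consG G) = redL q (listG G) := by
  unfold codeL redL consG
  have h0 : (listG G).length = G.cons.length := by simp [listG]
  rw [h0]
  congr 1
  rw [List.flatMap_assoc]
  have h1 : (listG G).flatMap (fun e => (List.range (multL (listG G) e.2.2.2)).flatMap fun _ =>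
      blockL q (listG G) e true ++ blockL q (listG G) e false) = G.cons.flatMap fun e =>
      (List.range (multL (listG G) e.w)).flatMap fun _ =>
      blockL q (listG G) (tabG e) true ++ blockL q (listG G) (tabG e) false := by
    conv_lhs => rw [listG, List.flatMap_map]
    rfl
  rw [h1]
  refine List.flatMap_congr fun e he => ?_
  rw [List.flatMap_assoc]
  refine List.flatMap_congr fun i _ => ?_
  rw [blockL_eq G he, blockL_eq G he]
  simp

/-! ### Multiplicities -/

theorem totL_listG (G : Game q) : totL (listG G) = weight G.cons := by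
  unfold totL listG weight
  rw [List.map_map]
  rfl

theorem w_le (G : Game q) {e : Constraint q} (he : e ∈ G.cons) : e.w ≤ weight G.cons :=
  List.single_le_sum (by simp) _ (List.mem_map_of_mem he)

theorem multL_eq (G : Game q) {e : Constraint q} (he : e ∈ G.cons) :
    multL (listG G) e.w = e.w * (2 * G.cons.length) / weight G.cons := by
  unfold multL
  rw [totL_listG, show (listG G).length = G.cons.length by simp [listG]]
  refine min_eq_left ?_
  refine Nat.div_le_of_le_mul ?_
  exact Nat.mul_le_mul_right _ (w_le G he)

theorem multL_le (G : Game q) {e : Constraint q} (he : e ∈ G.cons) :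
    (multL (listG G) e.w : ℝ) ≤ e.w * (2 * G.cons.length) / weight G.cons := by
  rw [multL_eq G he]
  refine (Nat.cast_div_le).trans_eq ?_
  push_cast
  ring

theorem lt_multL (G : Game q) {e : Constraint q} (he : e ∈ G.cons) :
    (e.w * (2 * G.cons.length) / weight G.cons : ℝ) - 1 ≤ multL (listG G) e.w := by
  have hW : (0 : ℝ) < weight G.cons := by exact_mod_cast G.weight_pos
  rw [multL_eq G he]
  have h1 := Nat.lt_div_mul_add (a := e.w * (2 * G.cons.length)) G.weight_pos
  have h2 : ((e.w * (2 * G.cons.length) : ℕ) : ℝ) <
      ((e.w * (2 * G.cons.length) / weight G.cons : ℕ) : ℝ) * weight G.cons + weight G.cons := by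
    exact_mod_cast h1
  rw [sub_le_iff_le_add, div_le_iff₀ hW, add_mul, one_mul]
  push_cast at h2
  linarith

/-- total number of copies -/
noncomputable def copies (G : Game q) : ℕ := (G.cons.map fun e => multL (listG G) e.w).sum

theorem sum_map_cast {β : Type*} (l : List β) (f : β → ℕ) :
    (((l.map f).sum : ℕ) : ℝ) = (l.map fun e => (f e : ℝ)).sum := by
  rw [Nat.cast_list_sum, List.map_map]
  rfl

theorem copies_le (G : Game q) : copies G ≤ 2 * G.cons.length := by
  have hW : (0 : ℝ) < weight G.cons := by exact_mod_cast G.weight_pos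
  have h : (copies G : ℝ) ≤ 2 * G.cons.length := by
    unfold copies
    rw [sum_map_cast]
    refine (List.sum_le_sum fun e he => multL_le G he).trans_eq ?_
    have h1 : (G.cons.map fun e => (e.w * (2 * G.cons.length) / weight G.cons : ℝ)).sum =
        (G.cons.map fun e => (e.w : ℝ)).sum * (2 * G.cons.length / weight G.cons) := by
      rw [← List.sum_map_mul_right]
      refine congrArg _ (List.map_congr_left fun e _ => ?_)
      ring
    rw [h1, ← sum_map_cast]
    change (weight G.cons : ℝ) * _ = _
    field_simp
  exact_mod_cast h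

theorem le_copies (G : Game q) : G.cons.length ≤ copies G := by
  have hW : (0 : ℝ) < weight G.cons := by exact_mod_cast G.weight_pos
  have h : (G.cons.length : ℝ) ≤ copies G := by
    unfold copies
    rw [sum_map_cast]
    refine le_trans (le_of_eq ?_) (List.sum_le_sum fun e he => lt_multL G he)
    have h1 : (G.cons.map fun e => (e.w * (2 * G.cons.length) / weight G.cons : ℝ) - 1).sum =
        (G.cons.map fun e => (e.w : ℝ)).sum * (2 * G.cons.length / weight G.cons) -
          G.cons.length := by
      rw [← List.sum_map_mul_right]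
      have h2 : ∀ l : List (Constraint q), (l.map fun e =>
          (e.w * (2 * G.cons.length) / weight G.cons : ℝ) - 1).sum =
          (l.map fun e => (e.w : ℝ) * (2 * G.cons.length / weight G.cons)).sum - l.length := by
        intro l
        induction l with
        | nil => simp
        | cons e l ih =>
          simp only [List.map_cons, List.sum_cons, List.length_cons, ih]
          push_cast
          ring
      exact h2 _
    rw [h1, ← sum_map_cast]
    change _ = (weight G.cons : ℝ) * _ - _
    field_simp
    ring
  exact_mod_cast h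

theorem length_consG (G : Game q) : (consG G).length = 2 * copies G := by
  unfold consG copies
  rw [List.length_flatMap, ← List.sum_map_mul_left]
  refine congrArg _ (List.map_congr_left fun e _ => ?_)
  rw [List.length_flatMap]
  simp
  ring

theorem consG_ne (G : Game q) : consG G ≠ [] := by
  intro h
  have h1 := length_consG G
  rw [h, List.length_nil] at h1
  have h2 := le_copies G
  have h3 := cons_pos G
  omega

/-- **The instance of Unique Games of a 2-to-1 game.** -/
noncomputable def toInst (G : Game q) : Inst (2 * q) where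
  n := 2 * G.cons.length
  cons := consG G
  ne := consG_ne G

theorem size_toInst (G : Game q) : (toInst G).size ≤ 6 * G.cons.length := by
  have h1 := length_consG G
  have h2 := copies_le G
  change 2 * G.cons.length + (consG G).length ≤ _
  omega

theorem codeL_toInst (G : Game q) : codeL (toInst G).cons = redL q (listG G) := codeL_consG G

/-! ### The value -/

theorem sat_toInst (G : Game q) (a : Fin (2 * G.cons.length) → Fin (2 * q)) :
    (toInst G).sat a = (G.cons.map fun e => multL (listG G) e.w *
      if (a (rightV G e.v) : ℕ) % q = e.π (a (leftV G e.u)) then 1 else 0).sum := by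
  change (consG G).countP (fun c : Fin (2 * G.cons.length) × Fin (2 * G.cons.length) ×
    Equiv.Perm (Fin (2 * q)) => decide (a c.2.1 = c.2.2 (a c.1))) = _
  unfold consG
  rw [List.countP_flatMap]
  refine congrArg _ (List.map_congr_left fun e he => ?_)
  rw [Function.comp_apply, List.countP_flatMap]
  have h2 := two_sat (G.two_to_one e he) (a (leftV G e.u)) (a (rightV G e.v))
  have h3 : (List.countP (fun c : Fin (2 * G.cons.length) × Fin (2 * G.cons.length) ×
      Equiv.Perm (Fin (2 * q)) => decide (a c.2.1 = c.2.2 (a c.1)))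
      [conG G e true, conG G e false]) =
      if (a (rightV G e.v) : ℕ) % q = e.π (a (leftV G e.u)) then 1 else 0 := by
    rw [← h2]
    simp only [List.countP_cons, List.countP_nil, conG, decide_eq_true_eq]
    omega
  have h4 : (List.map ((List.countP fun c : Fin (2 * G.cons.length) × Fin (2 * G.cons.length) ×
      Equiv.Perm (Fin (2 * q)) => decide (a c.2.1 = c.2.2 (a c.1))) ∘ fun _ : ℕ =>
      [conG G e true, conG G e false]) (List.range (multL (listG G) e.w))).sum =
      multL (listG G) e.w * (List.countP (fun c : Fin (2 * G.cons.length) ×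
        Fin (2 * G.cons.length) × Equiv.Perm (Fin (2 * q)) => decide (a c.2.1 = c.2.2 (a c.1)))
      [conG G e true, conG G e false]) := by
    rw [show ((List.countP fun c : Fin (2 * G.cons.length) × Fin (2 * G.cons.length) ×
      Equiv.Perm (Fin (2 * q)) => decide (a c.2.1 = c.2.2 (a c.1))) ∘ fun _ : ℕ =>
      [conG G e true, conG G e false]) = fun _ => List.countP (fun c : Fin (2 * G.cons.length) ×
        Fin (2 * G.cons.length) × Equiv.Perm (Fin (2 * q)) => decide (a c.2.1 = c.2.2 (a c.1)))
      [conG G e true, conG G e false] from rfl, List.map_const', List.sum_replicate]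
    simp
  rw [h4, h3]

theorem weight_filter (l : List (Constraint q)) (p : Constraint q → Prop) [DecidablePred p] :
    (weight (l.filter fun e => p e) : ℝ) = (l.map fun e => (e.w : ℝ) * if p e then 1 else 0).sum := by
  induction l with
  | nil => simp [weight]
  | cons e l ih =>
    rw [List.filter_cons, List.map_cons, List.sum_cons, ← ih]
    by_cases h : p e
    · simp [h, weight]
    · simp [h]

theorem prob_eq (G : Game q) (A : ℕ → Fin (2 * q)) (B : ℕ → Fin q) :
    G.prob A B = (G.cons.map fun e => (e.w : ℝ) * if e.π (A e.u) = B e.v then 1 else 0).sum /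
      weight G.cons := by
  unfold Game.prob
  rw [weight_filter]

theorem prob_le_one (G : Game q) (A : ℕ → Fin (2 * q)) (B : ℕ → Fin q) : G.prob A B ≤ 1 := by
  have hW : (0 : ℝ) < weight G.cons := by exact_mod_cast G.weight_pos
  rw [prob_eq, div_le_one hW]
  have h1 : (weight G.cons : ℝ) = (G.cons.map fun e => (e.w : ℝ)).sum := by
    rw [← sum_map_cast]
    rfl
  rw [h1]
  refine List.sum_le_sum fun e _ => ?_
  split_ifs <;> simp

theorem prob_le_value (G : Game q) (A : ℕ → Fin (2 * q)) (B : ℕ → Fin q) :
    G.prob A B ≤ G.value := by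
  refine le_csSup ⟨1, ?_⟩ ⟨A, B, rfl⟩
  rintro p ⟨A', B', rfl⟩
  exact prob_le_one G A' B'

theorem value_nonneg (G : Game q) : 0 ≤ G.value := by
  refine Real.sSup_nonneg ?_
  rintro p ⟨A, B, rfl⟩
  unfold Game.prob
  positivity

/-- **Soundness.** -/
theorem val_le (G : Game q) : (toInst G).val ≤ G.value := by
  have hW : (0 : ℝ) < weight G.cons := by exact_mod_cast G.weight_pos
  refine Real.iSup_le (fun a => ?_) (value_nonneg G)
  have hn := cons_pos G
  have hlen : ((toInst G).cons.length : ℝ) = 2 * copies G := by
    have := length_consG G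
    change ((consG G).length : ℝ) = _
    rw [this]
    push_cast
    ring
  have hc : (G.cons.length : ℝ) ≤ copies G := by exact_mod_cast le_copies G
  have hn' : (0 : ℝ) < G.cons.length := by exact_mod_cast hn
  have hq : 0 < q := by
    have h1 := (a (leftV G 0)).2
    omega
  set A : ℕ → Fin (2 * q) := fun u => a (leftV G u)
  set B : ℕ → Fin q := fun v => ⟨(a (rightV G v) : ℕ) % q, Nat.mod_lt _ hq⟩
  refine le_trans ?_ (prob_le_value G A B)
  rw [show (toInst G).sat a = _ from sat_toInst G a, hlen, prob_eq,
    div_le_div_iff₀ (by linarith) hW, sum_map_cast]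
  have h1 : (G.cons.map fun e => ((multL (listG G) e.w *
      if (a (rightV G e.v) : ℕ) % q = e.π (a (leftV G e.u)) then 1 else 0 : ℕ) : ℝ)).sum ≤
      (G.cons.map fun e => (e.w : ℝ) * if e.π (A e.u) = B e.v then 1 else 0).sum *
        (2 * G.cons.length / weight G.cons) := by
    rw [← List.sum_map_mul_right]
    refine List.sum_le_sum fun e he => ?_
    have h2 := multL_le G he
    have h3 : (a (rightV G e.v) : ℕ) % q = e.π (a (leftV G e.u)) ↔
        e.π (A e.u) = B e.v := by
      rw [Fin.ext_iff]
      exact eq_comm
    by_cases h4 : e.π (A e.u) = B e.v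
    · rw [if_pos (h3.2 h4), if_pos h4]
      push_cast
      calc (multL (listG G) e.w : ℝ) * 1 ≤ e.w * (2 * G.cons.length) / weight G.cons := by
            rw [mul_one]; exact h2
        _ = _ := by ring
    · rw [if_neg (fun h => h4 (h3.1 h)), if_neg h4]
      simp
  have h5 : 0 ≤ (G.cons.map fun e => (e.w : ℝ) * if e.π (A e.u) = B e.v then 1 else 0).sum := by
    refine List.sum_nonneg fun x hx => ?_
    obtain ⟨e, -, rfl⟩ := List.mem_map.1 hx
    positivity
  set Z := (G.cons.map fun e => (e.w : ℝ) * if e.π (A e.u) = B e.v then 1 else 0).sum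
  calc _ ≤ Z * (2 * G.cons.length / weight G.cons) * weight G.cons :=
        mul_le_mul_of_nonneg_right h1 hW.le
    _ = Z * (2 * G.cons.length) := by field_simp
    _ ≤ Z * (2 * copies G) := by gcongr

/-! ### Completeness -/

theorem gt_idx {l : List ℕ} {x : ℕ} (h : x ∈ l) : gt l (idx l x) = x := by
  unfold idx
  rcases h1 : (List.range l.length).find? fun j => decide (gt l j = x) with _ | j
  · exfalso
    rw [List.find?_eq_none] at h1
    obtain ⟨i, hi, rfl⟩ := List.getElem_of_mem h
    refine h1 i (List.mem_range.2 hi) ?_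
    simp [gt, hi]
  · have h2 := List.find?_some h1
    simpa using h2

theorem exists_prob (G : Game q) (h : 1 ≤ G.value) :
    ∃ (A : ℕ → Fin (2 * q)) (B : ℕ → Fin q), 1 ≤ G.prob A B := by
  set S : Set ℝ := {p : ℝ | ∃ (A : ℕ → Fin (2 * q)) (B : ℕ → Fin q), G.prob A B = p}
  have hne : S.Nonempty := by
    by_contra h1
    rw [Set.not_nonempty_iff_eq_empty] at h1
    have h2 : G.value = sSup S := rfl
    rw [h1, Real.sSup_empty] at h2
    linarith
  have hfin : S.Finite := by
    refine Set.Finite.subset (Set.Finite.image (fun n : ℕ => (n : ℝ) / weight G.cons)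
      (Set.finite_Iic (weight G.cons))) ?_
    rintro p ⟨A, B, rfl⟩
    refine ⟨weight (G.cons.filter fun e => e.π (A e.u) = B e.v), ?_, rfl⟩
    refine Set.mem_Iic.2 ?_
    exact List.Sublist.sum_le_sum ((List.filter_sublist).map _) (by simp)
  obtain ⟨A, B, hAB⟩ := hne.csSup_mem hfin
  refine ⟨A, B, ?_⟩
  rw [hAB]
  exact h

/-- **Completeness.** -/
theorem half_le_val (G : Game q) (h : 1 ≤ G.value) : 1 / 2 ≤ (toInst G).val := by
  obtain ⟨A, B, hAB⟩ := exists_prob G h
  have hW : (0 : ℝ) < weight G.cons := by exact_mod_cast G.weight_pos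
  have hq : 0 < q := (B 0).pos
  have hn := cons_pos G
  have hc : (G.cons.length : ℝ) ≤ copies G := by exact_mod_cast le_copies G
  have hn' : (0 : ℝ) < G.cons.length := by exact_mod_cast hn
  -- all constraints of positive weight are satisfied
  have hsat : ∀ e ∈ G.cons, 0 < e.w → e.π (A e.u) = B e.v := by
    rw [prob_eq, le_div_iff₀ hW, one_mul] at hAB
    have h1 : (weight G.cons : ℝ) = (G.cons.map fun e => (e.w : ℝ)).sum := by
      rw [← sum_map_cast]
      rfl
    rw [h1] at hAB
    intro e he hw
    by_contra hne
    have h2 : (G.cons.map fun e => (e.w : ℝ) * if e.π (A e.u) = B e.v then 1 else 0).sum <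
        (G.cons.map fun e => (e.w : ℝ)).sum := by
      refine List.sum_lt_sum _ _ (fun e _ => ?_) ⟨e, he, ?_⟩
      · split_ifs <;> simp
      · rw [if_neg hne]
        simpa using hw
    linarith
  -- the labeling
  set us := G.cons.map fun e => e.u with hus
  set vs := G.cons.map fun e => e.v with hvs
  set a : Fin (2 * G.cons.length) → Fin (2 * q) := fun i =>
    if (i : ℕ) % 2 = 0 then A (gt us (i / 2)) else
      ⟨B (gt vs (i / 2)), by have := (B (gt vs (i / 2))).2; omega⟩ with ha
  have hleft : ∀ e ∈ G.cons, a (leftV G e.u) = A e.u := by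
    intro e he
    have h1 : ((leftV G e.u : Fin _) : ℕ) = 2 * idx us e.u := rfl
    rw [ha]
    simp only [h1]
    rw [if_pos (by omega), show 2 * idx us e.u / 2 = idx us e.u by omega,
      gt_idx (List.mem_map_of_mem (f := fun e => e.u) he)]
  have hright : ∀ e ∈ G.cons, (a (rightV G e.v) : ℕ) = B e.v := by
    intro e he
    have h1 : ((rightV G e.v : Fin _) : ℕ) = 2 * idx vs e.v + 1 := rfl
    rw [ha]
    simp only [h1]
    rw [if_neg (by omega)]
    simp only
    rw [show (2 * idx vs e.v + 1) / 2 = idx vs e.v by omega,
      gt_idx (List.mem_map_of_mem (f := fun e => e.v) he)]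
  have hs : (toInst G).sat a = copies G := by
    rw [show (toInst G).sat a = _ from sat_toInst G a]
    unfold copies
    refine congrArg _ (List.map_congr_left fun e he => ?_)
    by_cases hw : 0 < e.w
    · rw [if_pos, mul_one]
      rw [hright e he, hleft e he, Nat.mod_eq_of_lt (B e.v).2, hsat e he hw]
    · have h0 : e.w = 0 := by omega
      rw [multL_eq G he, h0]
      simp
  have hlen : ((toInst G).cons.length : ℝ) = 2 * copies G := by
    have := length_consG G
    change ((consG G).length : ℝ) = _
    rw [this]
    push_cast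
    ring
  have hbdd : BddAbove (Set.range fun a : Fin (toInst G).n → Fin (2 * q) =>
      ((toInst G).sat a : ℝ) / (toInst G).cons.length) := Set.finite_range _ |>.bddAbove
  refine le_trans (le_of_eq ?_) (le_ciSup hbdd a)
  rw [hs, hlen]
  have h0 : (0 : ℝ) < copies G := hn'.trans_le hc
  field_simp

end Vale.Agent.P339.H898
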