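import Vale.Agent.P339.H898.RedDefs
import Vale.Agent.P325.AlgPT3

/-!
# The reduction from 2-to-1 games to unique games is computable in polynomial time
-/

namespace Vale.Agent.P339.H898

open Vale.Agent.Lib.PolyTime Vale.Agent.P325.Alg Vale.Agent.P325.AlgPT Vale.Agent.P339.H283

variable {A : Set Word} {α : Type*} [Enc α]

theorem PT_idx {l : α → List ℕ} {x : α → ℕ} (hl : PT A l) (hx : PT A x) :
    PT A fun a => idx (l a) (x a) := by
  unfold idx
  exact PT.optGetD (PT.find? (f := fun a j => decide (gt (l a) j = x a))
    (PT.range hl.length (PBd.length hl)) (PT.eqNat (pt_gt (ptl hl) PT.snd') (ptl hx)))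
    (PT.const 0)

/-- the table of the permutation, with a bounded search -/
theorem sigL_eq (q : ℕ) (b : Bool) (t : List ℕ) : sigL q b t = tab (2 * q) fun a =>
    if ((List.range (min a (2 * q))).all fun j => !decide (gt t j = gt t a)) = b then gt t a
      else gt t a + q := by
  unfold sigL tab
  refine List.map_congr_left fun a ha => ?_
  rw [List.mem_range] at ha
  unfold sigN isFst
  rw [min_eq_left ha.le]

theorem PT_eqBool (b : Bool) {f : α → Bool} (hf : PT A f) : PT A fun a => decide (f a = b) := by
  cases b
  · exact (PT.not hf).congr fun a => by cases f a <;> rfl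
  · exact hf.congr fun a => by cases f a <;> rfl

theorem PT_sigL (q : ℕ) (b : Bool) {t : α → List ℕ} (ht : PT A t) :
    PT A fun a => sigL q b (t a) := by
  simp only [sigL_eq]
  refine pt_tab (f := fun c a => if ((List.range (min a (2 * q))).all fun j =>
    !decide (gt (t c) j = gt (t c) a)) = b then gt (t c) a else gt (t c) a + q)
    (PT.const _) (PBd.const _) ?_
  have h1 : PT A fun p : α × ℕ => gt (t p.1) p.2 := pt_gt (ptl ht) PT.snd'
  refine PT.ite (PT_eqBool b ?_) h1 (PT.add h1 (PT.const q))
  refine PT.all (f := fun (p : α × ℕ) j => !decide (gt (t p.1) j = gt (t p.1) p.2))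
    (PT.range (PT.min PT.snd' (PT.const (2 * q))) ((PBd.const (2 * q)).mono fun _ =>
      min_le_right _ _)) ?_
  exact PT.not (PT.eqNat (pt_gt (ptl (ptl ht)) PT.snd') (ptl h1))

theorem PT_totL {L : α → List ConG} (hL : PT A L) : PT A fun a => totL (L a) :=
  PT.sum (PT.map (f := fun _ (e : ConG) => e.2.2.2) hL PT.snd'.snd.snd.snd)

theorem PT_multL {L : α → List ConG} {w : α → ℕ} (hL : PT A L) (hw : PT A w) :
    PT A fun a => multL (L a) (w a) := by
  unfold multL
  have h1 : PT A fun a => 2 * (L a).length := PT.mul (PT.const 2) hL.length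
  exact PT.min (PT.div (PT.mul hw h1) (PT_totL hL)) h1

theorem PBd_multL {L : α → List ConG} {w : α → ℕ} (hL : PT A L) :
    PBd fun a => multL (L a) (w a) :=
  ((PBd.const 2).mul (PBd.length hL)).mono fun _ => min_le_right _ _

theorem PT_blockL (q : ℕ) (b : Bool) {L : α → List ConG} {e : α → ConG} (hL : PT A L)
    (he : PT A e) : PT A fun a => blockL q (L a) (e a) b := by
  unfold blockL
  have hc : PT A fun p : α × ConG => p.2 := PT.snd'
  have h1 : PT A fun a => (L a).map fun e => e.1 := PT.map (f := fun _ (e : ConG) => e.1) hL hc.fst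
  have h2 : PT A fun a => (L a).map fun e => e.2.1 :=
    PT.map (f := fun _ (e : ConG) => e.2.1) hL hc.snd.fst
  exact PT.cons (PT.mul (PT.const 2) (PT_idx h1 he.fst)) (PT.cons
    (PT.add (PT.mul (PT.const 2) (PT_idx h2 he.snd.fst)) (PT.const 1))
    (PT_sigL q b he.snd.snd.fst))

theorem PT_redL (q : ℕ) {L : α → List ConG} (hL : PT A L) : PT A fun a => redL q (L a) := by
  unfold redL
  refine PT.cons (PT.mul (PT.const 2) hL.length) ?_
  have hc : PT A fun p : α × ConG => p.2 := PT.snd'
  refine PT.flatMap (f := fun a (e : ConG) => (List.range (multL (L a) e.2.2.2)).flatMap fun _ =>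
    blockL q (L a) e true ++ blockL q (L a) e false) hL ?_
  refine PT.flatMap (f := fun (p : α × ConG) (_ : ℕ) =>
    blockL q (L p.1) p.2 true ++ blockL q (L p.1) p.2 false)
    (PT.range (PT_multL (ptl hL) hc.snd.snd.snd) (PBd_multL (ptl hL))) ?_
  exact ptl (PT.append (PT_blockL q true (ptl hL) hc) (PT_blockL q false (ptl hL) hc))

/-! ### The code of a game -/

theorem pairW_eq (u v : List Bool) : pairW u v = pr u v := by
  unfold pairW
  induction u with
  | nil => rfl
  | cons b u ih => rw [List.flatMap_cons, pr, ← ih]; rfl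

theorem listW_eq {β : Type} [Enc β] (l : List β) : listW enc l = enc l := by
  induction l with
  | nil => rfl
  | cons a l ih => rw [listW, ih, enc_cons, pairW_eq]

theorem constraintW_eq {q : ℕ} (e : Constraint q) : constraintW e = enc (tabG e) := by
  unfold constraintW tabG
  simp only [pairW_eq]
  have h : listW Nat.bits (List.ofFn fun a => (e.π a : ℕ)) =
      enc (List.ofFn fun a => (e.π a : ℕ)) := listW_eq _
  rw [h]
  rfl

theorem gameW_eq {q : ℕ} (G : Game q) : gameW G = enc (listG G) := by
  unfold gameW listG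
  generalize G.cons = l
  induction l with
  | nil => rfl
  | cons e l ih => rw [listW, ih, List.map_cons, enc_cons, pairW_eq, constraintW_eq]

theorem length_le_gameW {q : ℕ} (G : Game q) : G.cons.length ≤ (gameW G).length := by
  rw [gameW_eq]
  have h := length_le_esize (listG G)
  unfold listG at h
  rwa [List.length_map] at h

end Vale.Agent.P339.H898
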