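import Vale.Agent.P339.H898.Gen
import Vale.Agent.P339.H898.Red
import Vale.Agent.P339.H898.RedPT

/-!
# 2-to-1 games in subexponential time
-/

namespace Vale.Agent.P339.H898

open Vale.Agent.Lib.PolyTime Vale.Agent.P325 Vale.Agent.P325.Alg Vale.Agent.P325.V2
  Vale.Agent.P339.H283

/-- size of the instance of Unique Games -/
theorem size_le {q : ℕ} (G : Game q) : ((toInst G).size : ℝ) ≤ 6 * ((gameW G).length : ℝ) := by
  have h1 := size_toInst G
  have h2 := length_le_gameW G
  have h3 : (toInst G).size ≤ 6 * (gameW G).length := h1.trans (Nat.mul_le_mul_left 6 h2)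
  exact_mod_cast h3

theorem result_two_to_one : ∃ C : ℝ, 0 < C ∧ ∀ (q : ℕ) (α δ : ℝ), 1 ≤ q → 0 < α → α ≤ 1 →
    δ ≤ 1 / 2 ^ (C * (1 + Real.log (1 / α)) / α) →
    SolvedIn (gameW : Game q → List Bool) (fun G => (gameW G).length)
      (fun G => 1 ≤ G.value) (fun G => G.value ≤ δ) α ∧
    ∀ (ι : Type) (code : ι → List Bool) (yes : ι → Prop) (f : ι → Game q) (A b : ℝ), 0 < b →
      PolyTime code gameW f →
      (∀ x, ((gameW (f x)).length : ℝ) ≤ A * (((code x).length : ℝ) + 1) ^ b) →
      (∀ x, yes x → 1 ≤ (f x).value) → (∀ x, ¬ yes x → (f x).value ≤ δ) →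
      SolvedIn code (fun x => ((code x).length : ℝ) + 1) yes (fun x => ¬ yes x) (b * α) := by
  obtain ⟨C0, hC0, h⟩ := V3.exists_gap3
  refine ⟨2 * C0, by positivity, fun q α δ hq hα hα1 hδ => ?_⟩
  obtain ⟨q', C, n0, main, hq', hgap⟩ := h (2 * q) α (1 / 2) (by omega) hα hα1 (by norm_num)
    (by norm_num)
  -- the soundness
  have hδ2 : δ ≤ (1 / 2 / 2 : ℝ) ^ (C0 * (1 + Real.log (1 / α)) / α) := by
    refine hδ.trans (le_of_eq ?_)
    have e1 : 2 * C0 * (1 + Real.log (1 / α)) / α = 2 * (C0 * (1 + Real.log (1 / α)) / α) := by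
      ring
    rw [e1, Real.rpow_mul (by norm_num)]
    rw [show (1 / 2 / 2 : ℝ) = (2 ^ (2 : ℝ))⁻¹ by norm_num, Real.inv_rpow (by norm_num), one_div]
  have hyes : ∀ G : Game q, 1 ≤ G.value → 1 - (1 - 1 / 2) ≤ (toInst G).val := fun G hG => by
    rw [sub_sub_cancel]
    exact half_le_val G hG
  have hno : ∀ G : Game q, G.value ≤ δ → (toInst G).val ≤
      1 - (1 - (1 / 2 / 2 : ℝ) ^ (C0 * (1 + Real.log (1 / α)) / α)) := fun G hG => by
    rw [sub_sub_cancel]
    exact (val_le G).trans (hG.trans hδ2)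
  have hq0 : (0 : ℝ) ≤ 1 / (q' : ℝ) := by positivity
  refine ⟨?_, ?_⟩
  · have h1 := gap_solved hgap (gameW : Game q → List Bool) listG gameW_eq toInst
      (F := redL q) (PT_redL q PT.id) (fun G => (codeL_toInst G).symm) (A := 6) (b := 1)
      one_pos (fun G => ?_) (fun G hG => hyes G hG) (fun G hG => hno G hG)
    · have hlen : ∀ G : Game q, (1 : ℝ) ≤ (gameW G).length := fun G => by
        have := (cons_pos G).trans_le (length_le_gameW G)
        exact_mod_cast this
      refine solvedIn_of_succ hα.le hlen ?_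
      refine SolvedIn.mono (fun G => ?_) ?_ (fun _ hx => hx) (fun _ hx => hx) h1
      · linarith [hlen G]
      · rw [one_mul]
        exact hq'
    · rw [Real.rpow_one]
      have h2 := size_le G
      linarith
  · intro ι code yes f A b hb hf hsize hy hn
    obtain ⟨M, hM⟩ := hf
    obtain ⟨g, hg, hg'⟩ := exists_FP_of_tm2 (A := ∅) M
    let inst : Enc ι := ⟨code⟩
    have hPT : PT ∅ (fun x : ι => listG (f x)) := ⟨g, hg, fun x => by
      rw [← gameW_eq]
      exact hg' x⟩
    have h1 := gap_solved hgap code (fun x : ι => x) (fun _ => rfl) (fun x => toInst (f x))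
      (PT_redL q hPT) (fun x => (codeL_toInst (f x)).symm) (A := 6 * A) hb (fun x => ?_)
      (fun x hx => hyes (f x) (hy x hx)) (fun x (hx : ¬ yes x) => hno (f x) (hn x hx))
    · refine SolvedIn.mono (fun x => ?_) (mul_le_mul_of_nonneg_left hq' hb.le) (fun _ hx => hx)
        (fun _ hx => hx) h1
      have : (0 : ℝ) ≤ (code x).length := Nat.cast_nonneg _
      linarith
    · refine (size_le (f x)).trans ?_
      have h2 := hsize x
      linarith

end Vale.Agent.P339.H898
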