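import Vale.Agent.Lib.PolyTime.OfTM2

/-!
# A function computed by a machine, for given codes, as a function on words
-/

namespace Vale.Agent.P339.H898

open Vale.Agent.Lib.PolyTime Vale.Agent.Lib.PolyTime.OfTM2 Function Turing

/-- A function computed in polynomial time by a machine of Mathlib, for given codes, is given by a
function on words in `FP`. -/
theorem exists_FP_of_tm2 {A : Set Word} {ι κ : Type} {ca : ι → Word} {cb : κ → Word} {f : ι → κ}
    (M : TM2ComputableInPolyTime ca cb f) : ∃ g : Word → Word, FP A g ∧ ∀ x, g (ca x) = cb (f x) := by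
  have hK : Fintype M.tm.K := M.tm.kFin
  have hΛ : Fintype M.tm.Λ := M.tm.ΛFin
  have hσ : Fintype M.tm.σ := M.tm.σFin
  set inp : Bool → M.tm.Γ M.tm.k₀ := M.inputAlphabet.invFun with hinp
  set out : Bool → M.tm.Γ M.tm.k₁ := M.outputAlphabet.invFun with hout
  obtain ⟨T, hT⟩ : ∃ T : List (Σ k, M.tm.Γ k), ∀ x, x ∈ T ↔
      x ∈ ((⋃ l, pushes (M.tm.m l)) ∪ (Set.range (fun b => (⟨M.tm.k₀, inp b⟩ : Σ k, M.tm.Γ k)) ∪
        Set.range fun b => (⟨M.tm.k₁, out b⟩ : Σ k, M.tm.Γ k))) := by
    have hfin : ((⋃ l, pushes (M.tm.m l)) ∪ (Set.range (fun b => (⟨M.tm.k₀, inp b⟩ :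
        Σ k, M.tm.Γ k)) ∪ Set.range fun b => (⟨M.tm.k₁, out b⟩ : Σ k, M.tm.Γ k))).Finite :=
      (Set.finite_iUnion fun l => pushes_finite (M.tm.m l)).union
        ((Set.finite_range _).union (Set.finite_range _))
    exact ⟨hfin.toFinset.toList, fun x => by rw [Finset.mem_toList, Set.Finite.mem_toFinset]⟩
  have hT1 : ∀ l, ∀ x ∈ pushes (M.tm.m l), x ∈ T := fun l x hx =>
    (hT x).2 (Or.inl (Set.mem_iUnion.2 ⟨l, hx⟩))
  have hT2 : ∀ b, (⟨M.tm.k₀, inp b⟩ : Σ k, M.tm.Γ k) ∈ T := fun b =>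
    (hT _).2 (Or.inr (Or.inl ⟨b, rfl⟩))
  have hT3 : ∀ b, (⟨M.tm.k₁, out b⟩ : Σ k, M.tm.Γ k) ∈ T := fun b =>
    (hT _).2 (Or.inr (Or.inr ⟨b, rfl⟩))
  -- the initial configuration
  set init : Raw → Fi (Option M.tm.Λ) × Fi M.tm.σ × (M.tm.K → List ℕ) := fun x =>
    (⟨some M.tm.main⟩, ⟨M.tm.initialState⟩, fun k =>
      if k = M.tm.k₀ then x.w.map (fun b => idx T M.tm.k₀ (inp b)) else []) with hinit
  have hPinit : PT A init := by
    refine (PT.const _).pair ((PT.const _).pair (PT_pi fun k => ?_))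
    by_cases h : k = M.tm.k₀
    · have h1 : PT A (fun x : Raw => x.w.map (fun b => idx T M.tm.k₀ (inp b))) := by
        refine PT.map (f := fun (_ : Raw) b => idx T M.tm.k₀ (inp b)) (PT.listOfRaw PT.id) ?_
        refine (PT.cond (c := fun p : Raw × Bool => p.2) PT.snd'
          (PT.const (idx T M.tm.k₀ (inp true))) (PT.const (idx T M.tm.k₀ (inp false)))).congr
          fun p => ?_
        cases p.2 <;> rfl
      exact h1.congr fun x => by rw [if_pos h]
    · exact (PT.const ([] : List ℕ)).congr fun x => by rw [if_neg h]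
  have hinit_eq : ∀ w : Word, init ⟨w⟩ = cf T (initList M.tm (w.map inp)) := by
    intro w
    simp only [hinit, cf, initList]
    refine Prod.ext rfl (Prod.ext rfl (funext fun k => ?_))
    by_cases h : k = M.tm.k₀
    · subst h
      simp [mp]
    · simp [mp, h]
  have hOk : ∀ w : Word, Ok T (initList M.tm (w.map inp)).stk := by
    intro w k γ hγ
    by_cases h : k = M.tm.k₀
    · subst h
      simp only [initList, dite_true] at hγ
      obtain ⟨b, -, rfl⟩ := List.mem_map.1 hγ
      exact hT2 b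
    · simp [initList, h] at hγ
  -- the clock
  obtain ⟨c, hc⟩ := (PB.of_polynomial M.time).exists_pb
  obtain ⟨u, hu, hu'⟩ := PT.exists_clock A Raw c
  obtain ⟨c', hc'⟩ := simStep_size T M.tm.m
  have hrun : PT A (fun x : Raw => (simStep T M.tm.m)^[esize (u x)] (init x)) := by
    have hB : PBd (fun x : Raw => (2 * Fintype.card (Option M.tm.Λ) +
        (2 * Fintype.card M.tm.σ + (esize (init x) + esize (u x) * c')) + 2)) := by
      have := hPinit.pbd
      have := hu.pbd
      fun_prop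
    refine PT.iterate_esize hu hPinit (PT_simStep T M.tm.m) hB fun x j hj => ?_
    refine (esize_cf _).trans ?_
    have h1 := hc' (init x) j
    have h4 : esize (init x).2.2 ≤ esize (init x) :=
      (esize_snd_le (init x).2).trans (esize_snd_le (init x))
    have h5 := Nat.mul_le_mul_right c' hj
    exact Nat.add_le_add_right (Nat.add_le_add_left (Nat.add_le_add_left
      (h1.trans (Nat.add_le_add h4 h5)) _) _) _
  have hfin : PT A (fun x : Raw => Raw.mk ((((simStep T M.tm.m)^[esize (u x)] (init x)).2.2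
      M.tm.k₁).map fun i => decide (i = idx T M.tm.k₁ (out true)))) := by
    refine PT.rawOfList (PT.map (f := fun (_ : Raw) i => decide (i = idx T M.tm.k₁ (out true)))
      (PT_apply hrun.snd.snd M.tm.k₁) ?_)
    exact PT.eqNat PT.snd' (PT.const _)
  obtain ⟨g, hg, hg'⟩ := hfin
  refine ⟨g, hg, fun x => ?_⟩
  have h1 := hg' ⟨ca x⟩
  have h2 : g (ca x) = (((simStep T M.tm.m)^[esize (u ⟨ca x⟩)] (init ⟨ca x⟩)).2.2
      M.tm.k₁).map fun i => decide (i = idx T M.tm.k₁ (out true)) := h1
  rw [h2, hinit_eq, (simStep_iterate hT1 _ (hOk (ca x)) _).1]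
  obtain ⟨⟨n, hn⟩, hnm⟩ := M.outputsFun x
  have h3 : n ≤ esize (u ⟨ca x⟩) := by
    rw [hu']
    exact hnm.trans (hc _)
  rw [tstep_iterate' M.tm.m n _ _ hn rfl _ h3]
  have h4 : (cf T (haltList M.tm ((cb (f x)).map out))).2.2 M.tm.k₁ =
      (cb (f x)).map fun b => idx T M.tm.k₁ (out b) := by
    simp [cf, mp, haltList]
  refine (congrArg (List.map fun i => decide (i = idx T M.tm.k₁ (out true))) h4).trans ?_
  rw [List.map_map]
  conv_rhs => rw [← List.map_id (cb (f x))]
  refine List.map_congr_left fun b _ => ?_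
  cases b
  · simp only [Function.comp_apply, id_eq, decide_eq_false_iff_not]
    intro h5
    have := idx_inj (hT3 false) h5
    exact absurd (M.outputAlphabet.symm.injective this) (by decide)
  · simp

end Vale.Agent.P339.H898
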