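import Vale.Agent.P325.V3.Final3
import Vale.Agent.P339.H898.TMGen

/-!
# Promise problems which reduce to the gap problem for unique games
-/

namespace Vale.Agent.P339.H898

open Vale.Agent.Lib.PolyTime Vale.Agent.P325 Vale.Agent.P325.Alg Vale.Agent.P325.V2

/-- Promise problems which reduce to the gap problem, given by codes. -/
theorem gap_solved {k q C n0 : ℕ} {κ ε : ℝ} {main : List ℕ → ℕ → Option Bool}
    (hg : Gap k q C n0 κ ε main) {ι β : Type} [Enc β] (code : ι → List Bool) (data : ι → β)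
    (hcode : ∀ x, code x = enc (data x)) (f : ι → Inst k) {F : β → List ℕ} (hF : PT ∅ F)
    (hfF : ∀ x, F (data x) = codeL (f x).cons) {A b : ℝ} (hb : 0 < b)
    (hsize : ∀ x, ((f x).size : ℝ) ≤ A * (((code x).length : ℝ) + 1) ^ b) {yes no : ι → Prop}
    (hyes : ∀ x, yes x → 1 - ε ≤ (f x).val) (hno : ∀ x, no x → (f x).val ≤ 1 - κ) :
    SolvedIn code (fun x => ((code x).length : ℝ) + 1) yes no (b * (1 / q)) := by
  have hG : PT ∅ (fun s : β × Raw => main (F s.1) s.2.w.length) :=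
    hg.pt.comp ((hF.comp (PT.fst' (α := β) (β := Raw))).pair PT.snd')
  obtain ⟨M, e, hM, h⟩ := exists_search_tm hG
  obtain ⟨C2, hC2⟩ := time_le_real hg.hq e C n0 hg.hn0 A hb
  refine ⟨M, C2, hM, fun x => ?_⟩
  obtain ⟨r, h1, h2, h3⟩ := exists_least (n := (f x).size + n0) hg.hq
  have hne : main (F (data x)) (Raw.mk (pad (C * r ^ 4))).w.length ≠ none := by
    show main (F (data x)) (pad (C * r ^ 4)).length ≠ none
    rw [length_pad, hfF]
    exact hg.some (f x) r _ h1 h2 h3 le_rfl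
  obtain ⟨y, j, hj, hy, -, hout⟩ := h (data x) (2 ^ (C * r ^ 4)) (C * r ^ 4) le_rfl hne
  have hy' : main (codeL (f x).cons) (Raw.mk (pad j)).w.length = some y := by
    rw [← hfF]
    exact hy
  have hspec := hg.spec (f x) _ y hy'
  rw [← hcode] at hout
  exact ⟨y, ((code x).length + 2 ^ (C * r ^ 4) + 2) ^ e,
    hC2 (code x).length (f x).size r (hsize x) h2,
    hout, fun hx => hspec.1 (hyes x hx), fun hx => hspec.2 (hno x hx)⟩

/-- the length instead of the length plus one -/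
theorem solvedIn_of_succ {ι : Type} {code : ι → List Bool} {len : ι → ℝ} {yes no : ι → Prop}
    {a : ℝ} (ha : 0 ≤ a) (hlen : ∀ x, 1 ≤ len x)
    (h : SolvedIn code (fun x => len x + 1) yes no a) : SolvedIn code len yes no a := by
  obtain ⟨M, C, hM, hG⟩ := h
  refine ⟨M, C * ⌈(2 : ℝ) ^ a⌉₊, hM, fun x => ?_⟩
  obtain ⟨ans, t, ht, hA, h1, h2⟩ := hG x
  refine ⟨ans, t, ht.trans ?_, hA, h1, h2⟩
  refine Real.rpow_le_rpow_of_exponent_le (by norm_num) ?_
  have hx := hlen x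
  have h3 : (len x + 1) ^ a ≤ (⌈(2 : ℝ) ^ a⌉₊ : ℝ) * len x ^ a := by
    calc (len x + 1) ^ a ≤ (2 * len x) ^ a := Real.rpow_le_rpow (by linarith) (by linarith) ha
      _ = 2 ^ a * len x ^ a := Real.mul_rpow (by norm_num) (by linarith)
      _ ≤ (⌈(2 : ℝ) ^ a⌉₊ : ℝ) * len x ^ a :=
        mul_le_mul_of_nonneg_right (Nat.le_ceil _) (Real.rpow_nonneg (by linarith) _)
  push_cast
  calc (C : ℝ) * (len x + 1) ^ a ≤ C * ((⌈(2 : ℝ) ^ a⌉₊ : ℝ) * len x ^ a) :=
        mul_le_mul_of_nonneg_left h3 (Nat.cast_nonneg _)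
    _ = _ := by ring

end Vale.Agent.P339.H898
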