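import Vale.Agent.P325.Alg
import Vale.Agent.P325.Stmt
import Vale.Agent.P339.H283.Defs

/-!
# From 2-to-1 games to unique games: definitions

A 2-to-1 constraint becomes two unique constraints; a weighted constraint becomes several copies.
-/

namespace Vale.Agent.P339.H898

open Vale.Agent.P325 Vale.Agent.P325.Alg Vale.Agent.P339.H283

/-! ### On lists of natural numbers -/

/-- a constraint: left vertex, right vertex, table of the projection, weight -/
abbrev ConG := ℕ × ℕ × List ℕ × ℕ

/-- the index of `x` in the list `l`, `0` if there is none -/
def idx (l : List ℕ) (x : ℕ) : ℕ :=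
  ((List.range l.length).find? fun j => decide (gt l j = x)).getD 0

/-- `a` is the first position of its value in the table `t` -/
def isFst (t : List ℕ) (a : ℕ) : Bool := (List.range a).all fun j => !decide (gt t j = gt t a)

/-- image of `a` for the permutation `b` of the table `t` -/
def sigN (q : ℕ) (b : Bool) (t : List ℕ) (a : ℕ) : ℕ :=
  if isFst t a = b then gt t a else gt t a + q

/-- table of the permutation `b` of the table `t` -/
def sigL (q : ℕ) (b : Bool) (t : List ℕ) : List ℕ := tab (2 * q) (sigN q b t)

/-- total weight -/
def totL (L : List ConG) : ℕ := (L.map fun e => e.2.2.2).sum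

/-- number of copies of a constraint of weight `w` -/
def multL (L : List ConG) (w : ℕ) : ℕ := min (w * (2 * L.length) / totL L) (2 * L.length)

/-- the numbers coding a unique constraint -/
def blockL (q : ℕ) (L : List ConG) (e : ConG) (b : Bool) : List ℕ :=
  2 * idx (L.map fun e => e.1) e.1 :: (2 * idx (L.map fun e => e.2.1) e.2.1 + 1) ::
    sigL q b e.2.2.1

/-- the numbers coding the instance of Unique Games -/
def redL (q : ℕ) (L : List ConG) : List ℕ :=
  2 * L.length :: L.flatMap fun e => (List.range (multL L e.2.2.2)).flatMap fun _ =>
    blockL q L e true ++ blockL q L e false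

/-! ### The instance -/

variable {q : ℕ}

/-- the constraint as a tuple -/
def tabG (e : Constraint q) : ConG := (e.u, e.v, List.ofFn (fun a => (e.π a : ℕ)), e.w)

/-- the game as a list -/
def listG (G : Game q) : List ConG := G.cons.map tabG

/-- `a` is the smaller label with its image -/
def Small (π : Fin (2 * q) → Fin q) (a : Fin (2 * q)) : Prop := ∀ j < a, π j ≠ π a

instance (π : Fin (2 * q) → Fin q) (a : Fin (2 * q)) : Decidable (Small π a) :=
  inferInstanceAs (Decidable (∀ j < a, π j ≠ π a))

/-- the image of `a` for the permutation `b` -/
def sigF (π : Fin (2 * q) → Fin q) (b : Bool) (a : Fin (2 * q)) : Fin (2 * q) :=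
  if decide (Small π a) = b then ⟨π a, by have := (π a).2; omega⟩
  else ⟨π a + q, by have := (π a).2; omega⟩

open Classical in
/-- the permutation `b` of the projection `π` -/
noncomputable def sig (π : Fin (2 * q) → Fin q) (b : Bool) : Equiv.Perm (Fin (2 * q)) :=
  if h : Function.Bijective (sigF π b) then Equiv.ofBijective _ h else Equiv.refl _

theorem find?_range_lt {n j : ℕ} {p : ℕ → Bool} (h : (List.range n).find? p = some j) : j < n :=
  List.mem_range.1 (List.mem_of_find?_eq_some h)

theorem idx_lt {l : List ℕ} (h : 0 < l.length) (x : ℕ) : idx l x < l.length := by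
  unfold idx
  rcases h1 : (List.range l.length).find? fun j => decide (gt l j = x) with _ | j
  · exact h
  · exact find?_range_lt h1

theorem cons_pos (G : Game q) : 0 < G.cons.length := by
  have h := G.weight_pos
  rcases h1 : G.cons with _ | ⟨e, l⟩
  · rw [h1] at h
    exact absurd h (by simp [weight])
  · simp

/-- the vertex of the instance for the left vertex `u` -/
def leftV (G : Game q) (u : ℕ) : Fin (2 * G.cons.length) :=
  ⟨2 * idx (G.cons.map fun e => e.u) u, by
    have h := idx_lt (l := G.cons.map fun e => e.u) (by simpa using cons_pos G) u
    rw [List.length_map] at h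
    omega⟩

/-- the vertex of the instance for the right vertex `v` -/
def rightV (G : Game q) (v : ℕ) : Fin (2 * G.cons.length) :=
  ⟨2 * idx (G.cons.map fun e => e.v) v + 1, by
    have h := idx_lt (l := G.cons.map fun e => e.v) (by simpa using cons_pos G) v
    rw [List.length_map] at h
    omega⟩

/-- the unique constraint `b` of the constraint `e` -/
noncomputable def conG (G : Game q) (e : Constraint q) (b : Bool) :
    Fin (2 * G.cons.length) × Fin (2 * G.cons.length) × Equiv.Perm (Fin (2 * q)) :=
  (leftV G e.u, rightV G e.v, sig e.π b)

/-- the constraints of the instance -/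
noncomputable def consG (G : Game q) :
    List (Fin (2 * G.cons.length) × Fin (2 * G.cons.length) × Equiv.Perm (Fin (2 * q))) :=
  G.cons.flatMap fun e => (List.range (multL (listG G) e.w)).flatMap fun _ =>
    [conG G e true, conG G e false]

end Vale.Agent.P339.H898
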